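import Vale.Agent.P052.Cert00

/-! Kernel-checked finite facts, part 1. -/

namespace Vale.Agent.P052

theorem tree_ok : treeOk = true := by decide +kernel

theorem clique_ok : noClique 5 ((List.range 416).filter (adjB 0)) = true := by decide +kernel

theorem diag_ok : diagSum 416 = 7296 := by decide +kernel

theorem len_row : rowData.length = 416 := by decide +kernel

theorem len_pack : packedData.length = 416 := by decide +kernel

end Vale.Agent.P052
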