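import Vale.Agent.P052.Cert02

/-! Kernel-checked finite facts, part 3. -/

namespace Vale.Agent.P052

theorem aut1_ok : autOk (autData.getD 1 0) = true := by decide +kernel

end Vale.Agent.P052
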