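import Vale.Agent.P052.Cert04

/-! Kernel-checked finite facts, part 5. -/

namespace Vale.Agent.P052

theorem sq_rows : rowsAll sqRow 0 rowData packedData = true := by decide +kernel

end Vale.Agent.P052
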