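import Mathlib.Data.Nat.Bitwise
import Mathlib.Data.List.Range
import Vale.Agent.P052.Data
import Vale.Agent.P052.Packed

/-! Boolean checks on the data, written to be cheap for the kernel. -/

namespace Vale.Agent.P052

/-- Row `i` of the adjacency matrix as a bit mask. -/
def row (i : ℕ) : ℕ := rowData.getD i 0

/-- Bit `j` of `r`. -/
def bit1 (r j : ℕ) : Bool := Nat.beq (Nat.land (Nat.shiftRight r j) 1) 1

/-- Adjacency in the graph. -/
def adjB (i j : ℕ) : Bool := bit1 (row i) j

/-- An automorphism stored as packed values. -/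
def autFn (H x : ℕ) : ℕ := Nat.mod (Nat.shiftRight H (Nat.mul 16 x)) 65536

/-- Class of a vertex: `3` for the 320 points, `0,1,2` for the other 96. -/
def grp (i : ℕ) : ℕ := Nat.mod (Nat.shiftRight groupData (Nat.mul 2 i)) 4

/-- Which automorphism is used at `v`. -/
def stepAut (v : ℕ) : ℕ := autData.getD (Nat.mod (Nat.shiftRight stepData (Nat.mul 2 v)) 2) 0

/-- Shifted Gram matrix entry. -/
def entry (i j : ℕ) : ℕ :=
  (bif Nat.beq i j then 16 else 0) + (bif adjB i j then 4 else 0) + 2 +
    (bif (Nat.blt (grp i) 3 && Nat.blt (grp j) 3) then 1 else 0) -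
    (bif (Nat.blt (grp i) 3 && Nat.beq (grp i) (grp j)) then 3 else 0)

/-- Pack the values `f k, …, f (k + n - 1)` in base `2^18`. -/
def pack (f : ℕ → ℕ) : ℕ → ℕ → ℕ
  | 0, _ => 0
  | n + 1, k => Nat.add (f k) (Nat.mul 262144 (pack f n (Nat.add k 1)))

/-- The lowest `n` bits of `r`, spread to base `2^18`. -/
def spread : ℕ → ℕ → ℕ
  | 0, _ => 0
  | n + 1, r => Nat.add (Nat.mod r 2) (Nat.mul 262144 (spread n (Nat.div r 2)))

/-- The sum of the list entries selected by the bits of `r`. -/
def selSum : List ℕ → ℕ → ℕ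
  | [], _ => 0
  | x :: t, r => bif Nat.beq (Nat.mod r 2) 1 then Nat.add x (selSum t (Nat.div r 2))
      else selSum t (Nat.div r 2)

/-- A table value for vertices in the three classes, `0` for the others. -/
def clsVal (L : List ℕ) (i : ℕ) : ℕ :=
  bif Nat.blt (grp i) 3 then L.getD (grp i) 0 else 0

/-- A table value for the union of the three classes, `0` for the others. -/
def unionVal (L : List ℕ) (i : ℕ) : ℕ :=
  bif Nat.blt (grp i) 3 then L.getD 3 0 else 0

def packRow (k r R : ℕ) : Bool :=
  Nat.beq (Nat.add R (Nat.mul 3 (clsVal spreadData k)))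
    (Nat.add (Nat.add (Nat.add (Nat.mul 16 (Nat.pow 262144 k)) (Nat.mul 4 (spread 416 r)))
      (Nat.mul 2 (spreadData.getD 4 0))) (unionVal spreadData k)) &&
  Nat.beq (Nat.mod R 262143) 1248

def sqRow (k r R : ℕ) : Bool :=
  Nat.beq
    (Nat.add (Nat.add (Nat.add (Nat.mul 4 (selSum packedData r)) (Nat.mul 16 R))
      (Nat.mul 2 (totalData.getD 4 0))) (unionVal totalData k))
    (Nat.add (Nat.add (Nat.mul 96 R) (Nat.mul 3456 (spreadData.getD 4 0)))
      (Nat.mul 3 (clsVal totalData k)))

/-- Apply a test to corresponding rows of the two tables. -/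
def rowsAll (p : ℕ → ℕ → ℕ → Bool) : ℕ → List ℕ → List ℕ → Bool
  | _, [], [] => true
  | k, r :: t, R :: s => p k r R && rowsAll p (Nat.add k 1) t s
  | _, _, _ => false

def tablesOk : Bool :=
  (List.range 5).all fun g =>
    Nat.beq (spread 416 (maskData.getD g 0)) (spreadData.getD g 0) &&
    Nat.beq (selSum packedData (maskData.getD g 0)) (totalData.getD g 0)

def masksOk : Bool :=
  (List.range 416).all fun j =>
    bit1 (maskData.getD 4 0) j &&
    ((bit1 (maskData.getD 3 0) j) == Nat.blt (grp j) 3) &&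
    (List.range 3).all fun g => (bit1 (maskData.getD g 0) j) == Nat.beq g (grp j)

def autRow : ℕ → ℕ → ℕ → ℕ → Bool
  | 0, _, _, _ => true
  | n + 1, r, H, r' =>
    (bif Nat.beq (Nat.mod r 2) 1 then bit1 r' (Nat.mod H 65536) else true) &&
      autRow n (Nat.div r 2) (Nat.div H 65536) r'

def autAux (H : ℕ) : ℕ → List ℕ → Bool
  | _, [] => true
  | x, r :: t => Nat.blt (autFn H x) 416 && autRow 416 r H (row (autFn H x)) && autAux H (x + 1) t

def autOk (H : ℕ) : Bool := autAux H 0 rowData

def symmRow : List ℕ → ℕ → ℕ → Bool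
  | [], _, _ => true
  | R :: t, r, x => (bif Nat.beq (Nat.mod r 2) 1 then bit1 R x else true) &&
      symmRow t (Nat.div r 2) x

def symmAux : ℕ → List ℕ → Bool
  | _, [] => true
  | x, r :: t => !bit1 r x && symmRow rowData r x && symmAux (x + 1) t

def symmOk : Bool := symmAux 0 rowData

def diagSum : ℕ → ℕ
  | 0 => 0
  | y + 1 => Nat.add (entry y y) (diagSum y)

def treeOk : Bool :=
  (List.range' 1 415).all fun v => Nat.blt (autFn (stepAut v) v) v

def noCliqueAux (f : List ℕ → Bool) : List ℕ → Bool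
  | [] => true
  | v :: t => f (t.filter (adjB v)) && noCliqueAux f t

def noClique : ℕ → List ℕ → Bool
  | 0, _ => false
  | k + 1, l => noCliqueAux (noClique k) l

end Vale.Agent.P052
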