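import Mathlib
import Vale.Agent.P052.Certs

/-! The graph: symmetric, irreflexive, and every clique has at most five vertices. -/

namespace Vale.Agent.P052

lemma shiftRight_div2 (r k : ℕ) : (r >>> k) / 2 = r >>> (k + 1) := by
  rw [Nat.shiftRight_succ]

lemma bit1_eq (r k : ℕ) : bit1 r k = Nat.beq (Nat.mod (r >>> k) 2) 1 := by
  unfold bit1
  simp only [Nat.shiftRight_eq]
  rw [show Nat.land (r >>> k) 1 = (r >>> k) &&& 1 from rfl, Nat.and_one_is_mod]
  rfl

lemma autRow_spec {r' : ℕ} : ∀ n k r H, autRow n (r >>> k) (H >>> (16 * k)) r' = true →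
    ∀ y, k ≤ y → y < k + n → bit1 r y = true → bit1 r' (autFn H y) = true := by
  intro n
  induction n with
  | zero => intro k r H _ y h1 h2; omega
  | succ n ih =>
    intro k r H h y h1 h2 hb
    simp only [autRow, Bool.and_eq_true] at h
    obtain rfl | hlt := eq_or_lt_of_le h1
    · rw [bit1_eq] at hb
      have := h.1
      rw [hb] at this
      simpa [autFn] using this
    · refine ih (k + 1) r H ?_ y (by omega) (by omega) hb
      have e1 : Nat.div (r >>> k) 2 = r >>> (k + 1) := shiftRight_div2 r k
      have e2 : Nat.div (H >>> (16 * k)) 65536 = H >>> (16 * (k + 1)) := by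
        rw [show 16 * (k + 1) = 16 * k + 16 by ring, Nat.shiftRight_add, Nat.shiftRight_eq_div_pow _ 16]
        rfl
      rw [← e1, ← e2]
      exact h.2

lemma autFn_lt_of_autAux {H : ℕ} : ∀ (l : List ℕ) (k : ℕ), autAux H k l = true →
    ∀ i, i < l.length → autFn H (k + i) < 416 ∧
      autRow 416 (l.getD i 0) H (row (autFn H (k + i))) = true := by
  intro l
  induction l with
  | nil => intro k _ i hi; simp at hi
  | cons r t ih =>
    intro k h i hi
    simp only [autAux, Bool.and_eq_true] at h
    cases i with
    | zero => exact ⟨by simpa using h.1.1, by simpa using h.1.2⟩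
    | succ i =>
      have := ih (k + 1) h.2 i (by simpa using hi)
      simpa [Nat.add_assoc, Nat.add_comm 1 i] using this

lemma autOk_spec {H : ℕ} (h : autOk H = true) {x y : ℕ} (hx : x < 416) (hy : y < 416)
    (hxy : adjB x y = true) : autFn H x < 416 ∧ adjB (autFn H x) (autFn H y) = true := by
  have := autFn_lt_of_autAux rowData 0 h x (by rw [len_row]; exact hx)
  simp only [Nat.zero_add] at this
  refine ⟨this.1, autRow_spec 416 0 (row x) H ?_ y (Nat.zero_le _) (by omega) hxy⟩
  simpa [row] using this.2

lemma symmRow_spec {x : ℕ} : ∀ (l : List ℕ) (k r : ℕ), symmRow l (r >>> k) x = true →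
    ∀ j, j < l.length → bit1 r (k + j) = true → bit1 (l.getD j 0) x = true := by
  intro l
  induction l with
  | nil => intro k r _ j hj; simp at hj
  | cons R t ih =>
    intro k r h j hj hb
    simp only [symmRow, Bool.and_eq_true] at h
    cases j with
    | zero =>
      rw [Nat.add_zero, bit1_eq] at hb
      have := h.1
      rw [hb] at this
      simpa using this
    | succ j =>
      have := ih (k + 1) r (by rw [← shiftRight_div2]; exact h.2) j (by simpa using hj)
        (by rwa [Nat.add_assoc, Nat.add_comm 1 j])
      simpa using this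

lemma symmAux_spec : ∀ (l : List ℕ) (k : ℕ), symmAux k l = true →
    ∀ i, i < l.length → bit1 (l.getD i 0) (k + i) = false ∧
      symmRow rowData (l.getD i 0) (k + i) = true := by
  intro l
  induction l with
  | nil => intro k _ i hi; simp at hi
  | cons r t ih =>
    intro k h i hi
    simp only [symmAux, Bool.and_eq_true] at h
    cases i with
    | zero => exact ⟨by simpa using h.1.1, by simpa using h.1.2⟩
    | succ i =>
      have := ih (k + 1) h.2 i (by simpa using hi)
      simpa [Nat.add_assoc, Nat.add_comm 1 i] using this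

lemma adjB_irrefl {x : ℕ} (hx : x < 416) : adjB x x = false := by
  have := (symmAux_spec rowData 0 symm_ok x (by rw [len_row]; exact hx)).1
  simpa [adjB, row] using this

lemma adjB_symm_imp {x y : ℕ} (hx : x < 416) (hy : y < 416) (h : adjB x y = true) :
    adjB y x = true := by
  have h0 := (symmAux_spec rowData 0 symm_ok x (by rw [len_row]; exact hx)).2
  simp only [Nat.zero_add] at h0
  exact symmRow_spec rowData 0 (row x) (by simpa [row] using h0) y (by rw [len_row]; exact hy)
    (by simpa [adjB] using h)

lemma adjB_comm {x y : ℕ} (hx : x < 416) (hy : y < 416) : adjB x y = adjB y x := by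
  by_cases h : adjB x y = true
  · rw [h, adjB_symm_imp hx hy h]
  · by_cases h' : adjB y x = true
    · exact absurd (adjB_symm_imp hy hx h') h
    · simp_all

lemma noClique_spec : ∀ (k : ℕ) (l : List ℕ), noClique k l = true →
    ∀ s : Finset ℕ, (∀ x ∈ s, x ∈ l) → (∀ x ∈ s, ∀ y ∈ s, x ≠ y → adjB x y = true) →
      s.card ≠ k := by
  intro k
  induction k with
  | zero => intro l h; simp [noClique] at h
  | succ k ih =>
    intro l
    induction l with
    | nil =>
      intro _ s hs _ hc
      obtain ⟨x, hx⟩ := Finset.card_pos.1 (by omega : 0 < s.card)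
      exact absurd (hs x hx) (by simp)
    | cons v t iht =>
      intro h s hs hp hc
      simp only [noClique, noCliqueAux, Bool.and_eq_true] at h
      by_cases hv : v ∈ s
      · apply ih _ h.1 (s.erase v)
        · intro x hx
          obtain ⟨hxv, hxs⟩ := Finset.mem_erase.1 hx
          have := hs x hxs
          simp only [List.mem_cons, hxv, false_or] at this
          exact List.mem_filter.2 ⟨this, hp v hv x hxs (Ne.symm hxv)⟩
        · intro x hx y hy hxy
          exact hp x (Finset.mem_of_mem_erase hx) y (Finset.mem_of_mem_erase hy) hxy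
        · rw [Finset.card_erase_of_mem hv, hc]; rfl
      · refine iht h.2 s ?_ hp hc
        intro x hx
        have := hs x hx
        simp only [List.mem_cons] at this
        rcases this with rfl | this
        · exact absurd hx hv
        · exact this

lemma stepAut_mem (v : ℕ) : autOk (stepAut v) = true := by
  unfold stepAut
  have h : Nat.mod (Nat.shiftRight stepData (Nat.mul 2 v)) 2 < 2 := Nat.mod_lt _ (by norm_num)
  generalize Nat.mod (Nat.shiftRight stepData (Nat.mul 2 v)) 2 = k at h
  interval_cases k
  · exact aut0_ok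
  · exact aut1_ok

/-- Every clique has at most five vertices. -/
theorem clique_card_le_five (s : Finset ℕ) (hs : ∀ x ∈ s, x < 416)
    (hp : ∀ x ∈ s, ∀ y ∈ s, x ≠ y → adjB x y = true) : s.card ≤ 5 := by
  by_contra hc
  obtain ⟨t, hts, htc⟩ := Finset.exists_subset_card_eq (show 6 ≤ s.card by omega)
  suffices ∀ v, ∀ t : Finset ℕ, t.card = 6 → (∀ x ∈ t, x < 416) →
      (∀ x ∈ t, ∀ y ∈ t, x ≠ y → adjB x y = true) → v ∉ t by
    obtain ⟨v, hv⟩ := Finset.card_pos.1 (by omega : 0 < t.card)
    exact this v t htc (fun x hx => hs x (hts hx))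
      (fun x hx y hy => hp x (hts hx) y (hts hy)) hv
  intro v
  induction v using Nat.strong_induction_on with
  | _ v ih =>
    intro t htc hlt hpt hv
    by_cases h0 : v = 0
    · subst h0
      apply noClique_spec 5 _ clique_ok (t.erase 0)
      · intro x hx
        obtain ⟨hx0, hxt⟩ := Finset.mem_erase.1 hx
        exact List.mem_filter.2 ⟨List.mem_range.2 (hlt x hxt), hpt 0 hv x hxt (Ne.symm hx0)⟩
      · intro x hx y hy hxy
        exact hpt x (Finset.mem_of_mem_erase hx) y (Finset.mem_of_mem_erase hy) hxy
      · rw [Finset.card_erase_of_mem hv, htc]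
    · have hv416 := hlt v hv
      have hdesc : autFn (stepAut v) v < v := by
        have := tree_ok
        simp only [treeOk, List.all_eq_true] at this
        have := this v (by simp [List.mem_range'_1]; omega)
        simpa using this
      have hadj := fun x (hx : x ∈ t) y (hy : y ∈ t) (hxy : x ≠ y) =>
        autOk_spec (stepAut_mem v) (hlt x hx) (hlt y hy) (hpt x hx y hy hxy)
      have hinj : Set.InjOn (autFn (stepAut v)) ↑t := by
        intro x hx y hy he
        by_contra hxy
        obtain ⟨h1, h2⟩ := hadj x hx y hy hxy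
        rw [← he, adjB_irrefl h1] at h2
        exact Bool.false_ne_true h2
      refine ih _ hdesc (t.image (autFn (stepAut v))) ?_ ?_ ?_ (Finset.mem_image_of_mem _ hv)
      · rw [Finset.card_image_of_injOn hinj, htc]
      · intro x hx
        obtain ⟨a, ha, rfl⟩ := Finset.mem_image.1 hx
        obtain ⟨b, hb, hab⟩ := Finset.exists_mem_ne (by omega : 1 < t.card) a
        exact (hadj a ha b hb (Ne.symm hab)).1
      · intro x hx y hy hxy
        obtain ⟨a, ha, rfl⟩ := Finset.mem_image.1 hx
        obtain ⟨b, hb, rfl⟩ := Finset.mem_image.1 hy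
        exact (hadj a ha b hb (fun e => hxy (by rw [e]))).2

end Vale.Agent.P052
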