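import Mathlib
import Vale.Agent.P052.Graph

/-! The integer Gram matrix is a multiple of a projection of trace 63. -/

open Finset Matrix

namespace Vale.Agent.P052

lemma entry_le (i j : ℕ) : entry i j ≤ 23 := by
  unfold entry
  cases Nat.beq i j <;> cases adjB i j <;>
    cases (Nat.blt (grp i) 3 && Nat.blt (grp j) 3) <;>
    cases (Nat.blt (grp i) 3 && Nat.beq (grp i) (grp j)) <;> simp

lemma beq_comm' (a b : ℕ) : Nat.beq a b = Nat.beq b a := by
  rw [Bool.eq_iff_iff, Nat.beq_eq, Nat.beq_eq]
  exact eq_comm

lemma blt_beq_comm (a b : ℕ) :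
    (Nat.blt a 3 && Nat.beq a b) = (Nat.blt b 3 && Nat.beq b a) := by
  rw [beq_comm' b a]
  cases h : Nat.beq a b
  · simp
  · rw [Nat.eq_of_beq_eq_true h]

lemma entry_comm {i j : ℕ} (hi : i < 416) (hj : j < 416) : entry i j = entry j i := by
  unfold entry
  rw [adjB_comm hi hj, beq_comm' i j, blt_beq_comm (grp i) (grp j),
    Bool.and_comm (Nat.blt (grp i) 3) (Nat.blt (grp j) 3)]

lemma pack_inj {f g : ℕ → ℕ} : ∀ n k, (∀ j, k ≤ j → j < k + n → f j < 262144) →
    (∀ j, k ≤ j → j < k + n → g j < 262144) → pack f n k = pack g n k →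
    ∀ j, k ≤ j → j < k + n → f j = g j := by
  intro n
  induction n with
  | zero => intro k _ _ _ j h1 h2; omega
  | succ n ih =>
    intro k hf hg he j h1 h2
    simp only [pack, Nat.add_eq, Nat.mul_eq] at he
    have hf0 := hf k le_rfl (by omega)
    have hg0 := hg k le_rfl (by omega)
    obtain rfl | hlt := eq_or_lt_of_le h1
    · omega
    · refine ih (k + 1) (fun j a b => hf j (by omega) (by omega))
        (fun j a b => hg j (by omega) (by omega)) (by omega) j (by omega) (by omega)

lemma pack_eq_sum (f : ℕ → ℕ) : ∀ n k,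
    pack f n k = ∑ t ∈ range n, f (k + t) * 262144 ^ t := by
  intro n
  induction n with
  | zero => intro k; simp [pack]
  | succ n ih =>
    intro k
    simp only [pack, Nat.add_eq, Nat.mul_eq, ih]
    rw [sum_range_succ', mul_sum]
    simp only [pow_succ, pow_zero, mul_one, Nat.add_zero]
    rw [add_comm]
    congr 1
    refine sum_congr rfl fun t _ => ?_
    rw [show k + 1 + t = k + (t + 1) by omega]
    ring

lemma bitNat_mod (r k : ℕ) : (bit1 r k).toNat = Nat.mod (r >>> k) 2 := by
  rw [bit1_eq]
  rcases Nat.mod_two_eq_zero_or_one (r >>> k) with h | h <;>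
    rw [show Nat.mod (r >>> k) 2 = (r >>> k) % 2 from rfl, h] <;> rfl

lemma spread_eq : ∀ n k r,
    spread n (r >>> k) = ∑ t ∈ range n, (bit1 r (k + t)).toNat * 262144 ^ t := by
  intro n
  induction n with
  | zero => intro k r; simp [spread]
  | succ n ih =>
    intro k r
    rw [sum_range_succ', spread,
      show Nat.div (r >>> k) 2 = r >>> (k + 1) from shiftRight_div2 r k, ih (k + 1) r,
      ← bitNat_mod]
    simp only [Nat.add_eq, Nat.mul_eq, mul_sum, pow_succ, pow_zero, mul_one, Nat.add_zero]
    rw [add_comm]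
    congr 1
    refine sum_congr rfl fun t _ => ?_
    rw [show k + 1 + t = k + (t + 1) by omega]
    ring

lemma selSum_eq : ∀ (l : List ℕ) k r,
    selSum l (r >>> k) = ∑ t ∈ range l.length, (bit1 r (k + t)).toNat * l.getD t 0 := by
  intro l
  induction l with
  | nil => intro k r; simp [selSum]
  | cons x l ih =>
    intro k r
    rw [selSum, List.length_cons, sum_range_succ', ← bit1_eq,
      show Nat.div (r >>> k) 2 = r >>> (k + 1) from shiftRight_div2 r k, ih (k + 1) r]
    have : ∀ t, k + 1 + t = k + (t + 1) := fun t => by omega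
    simp only [this, List.getD_cons_succ, List.getD_cons_zero, Nat.add_zero]
    cases bit1 r k <;> simp [add_comm]

lemma spread_row (r : ℕ) : spread 416 r = ∑ j ∈ range 416, (bit1 r j).toNat * 262144 ^ j := by
  simpa using spread_eq 416 0 r

lemma selSum_row (r : ℕ) :
    selSum packedData r = ∑ j ∈ range 416, (bit1 r j).toNat * packedData.getD j 0 := by
  simpa [len_pack] using selSum_eq packedData 0 r

lemma rowsAll_spec {p : ℕ → ℕ → ℕ → Bool} : ∀ (l s : List ℕ) k, rowsAll p k l s = true →
    ∀ i, i < l.length → p (k + i) (l.getD i 0) (s.getD i 0) = true := by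
  intro l
  induction l with
  | nil => intro s k _ i hi; simp at hi
  | cons r t ih =>
    intro s k h i hi
    cases s with
    | nil => simp [rowsAll] at h
    | cons R s =>
      simp only [rowsAll, Bool.and_eq_true] at h
      cases i with
      | zero => simpa using h.1
      | succ i =>
        have := ih s (k + 1) h.2 i (by simpa using hi)
        simpa [Nat.add_assoc, Nat.add_comm 1 i] using this

lemma mask_spec {j : ℕ} (hj : j < 416) :
    bit1 (maskData.getD 4 0) j = true ∧
      bit1 (maskData.getD 3 0) j = Nat.blt (grp j) 3 ∧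
      ∀ g, g < 3 → bit1 (maskData.getD g 0) j = Nat.beq g (grp j) := by
  have h := masks_ok
  simp only [masksOk, List.all_eq_true, Bool.and_eq_true, beq_iff_eq, List.mem_range] at h
  obtain ⟨⟨h1, h2⟩, h3⟩ := h j hj
  exact ⟨h1, h2, h3⟩

lemma table_spec {g : ℕ} (hg : g < 5) :
    spreadData.getD g 0 = ∑ j ∈ range 416, (bit1 (maskData.getD g 0) j).toNat * 262144 ^ j ∧
      totalData.getD g 0 =
        ∑ j ∈ range 416, (bit1 (maskData.getD g 0) j).toNat * packedData.getD j 0 := by
  have h := tables_ok
  simp only [tablesOk, List.all_eq_true, Bool.and_eq_true, List.mem_range] at h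
  obtain ⟨h1, h2⟩ := h g hg
  exact ⟨(Nat.eq_of_beq_eq_true h1).symm.trans (spread_row _),
    (Nat.eq_of_beq_eq_true h2).symm.trans (selSum_row _)⟩

/-- The same linear combination that defines `entry`, applied to any weights. -/
lemma entry_combination {i : ℕ} (hi : i < 416) (L : List ℕ) (w : ℕ → ℕ)
    (hL : ∀ g, g < 5 → L.getD g 0 = ∑ j ∈ range 416, (bit1 (maskData.getD g 0) j).toNat * w j) :
    ∑ j ∈ range 416, entry i j * w j + 3 * clsVal L i =
      16 * w i + 4 * ∑ j ∈ range 416, (bit1 (row i) j).toNat * w j + 2 * L.getD 4 0 +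
        unionVal L i := by
  have hs : 16 * w i = ∑ j ∈ range 416, 16 * (Nat.beq i j).toNat * w j := by
    rw [Finset.sum_eq_single i]
    · simp
    · intro j _ hji
      have : Nat.beq i j = false := by
        cases hb : Nat.beq i j
        · rfl
        · exact absurd (Nat.eq_of_beq_eq_true hb).symm hji
      simp [this]
    · intro h; exact absurd (mem_range.2 hi) h
  rw [hL 4 (by norm_num), hs]
  cases hu : Nat.blt (grp i) 3
  · simp only [clsVal, unionVal, hu, cond_false, mul_zero, add_zero]
    rw [mul_sum, mul_sum, ← sum_add_distrib, ← sum_add_distrib]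
    refine sum_congr rfl fun j hj => ?_
    rw [(mask_spec (mem_range.1 hj)).1]
    simp only [entry, hu, Bool.false_and, cond_false, adjB]
    cases Nat.beq i j <;> cases bit1 (row i) j <;> simp <;> ring
  · have hgi : grp i < 3 := by simpa using hu
    simp only [clsVal, unionVal, hu, cond_true]
    rw [hL (grp i) (by omega), hL 3 (by norm_num), mul_sum, mul_sum, mul_sum, ← sum_add_distrib,
      ← sum_add_distrib, ← sum_add_distrib, ← sum_add_distrib]
    refine sum_congr rfl fun j hj => ?_
    obtain ⟨m4, m3, mg⟩ := mask_spec (mem_range.1 hj)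
    rw [m4, m3, mg _ hgi]
    simp only [entry, hu, Bool.true_and, adjB]
    cases hb : Nat.beq (grp i) (grp j)
    · cases Nat.beq i j <;> cases bit1 (row i) j <;> cases Nat.blt (grp j) 3 <;> simp <;> ring
    · have : Nat.blt (grp j) 3 = true := by rw [← Nat.eq_of_beq_eq_true hb]; exact hu
      rw [this]
      cases Nat.beq i j <;> cases bit1 (row i) j <;> simp <;> ring

lemma packed_spec {i : ℕ} (hi : i < 416) :
    packedData.getD i 0 = ∑ j ∈ range 416, entry i j * 262144 ^ j ∧
      ∑ j ∈ range 416, entry i j = 1248 := by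
  have h := rowsAll_spec _ _ 0 pack_rows i (by rw [len_row]; exact hi)
  simp only [Nat.zero_add, packRow, Bool.and_eq_true] at h
  obtain ⟨h1, h2⟩ := h
  have h1 := Nat.eq_of_beq_eq_true h1
  have h2 := Nat.eq_of_beq_eq_true h2
  simp only [Nat.add_eq, Nat.mul_eq] at h1
  rw [spread_row] at h1
  have hc := entry_combination hi spreadData (fun j => 262144 ^ j) fun g hg => (table_spec hg).1
  have e1 : Nat.pow 262144 i = 262144 ^ i := rfl
  have e2 : rowData.getD i 0 = row i := rfl
  rw [e1, e2] at h1
  have hR : packedData.getD i 0 = ∑ j ∈ range 416, entry i j * 262144 ^ j := by omega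
  refine ⟨hR, ?_⟩
  have hlt : ∑ j ∈ range 416, entry i j < 262143 :=
    lt_of_le_of_lt (sum_le_sum fun j _ => entry_le i j) (by simp)
  have hm : (∑ j ∈ range 416, entry i j * 262144 ^ j) % 262143 =
      (∑ j ∈ range 416, entry i j) % 262143 := by
    rw [Finset.sum_nat_mod, Finset.sum_nat_mod (s := range 416) (f := fun j => entry i j)]
    refine congrArg (fun x => x % 262143) (sum_congr rfl fun j _ => ?_)
    rw [Nat.mul_mod, Nat.pow_mod, show 262144 % 262143 = 1 from rfl, one_pow,
      show 1 % 262143 = 1 from rfl, mul_one, Nat.mod_mod]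
  have e3 : Nat.mod (packedData.getD i 0) 262143 = packedData.getD i 0 % 262143 := rfl
  rw [e3, hR, hm, Nat.mod_eq_of_lt hlt] at h2
  exact h2

lemma entry_row_sum {i : ℕ} (hi : i < 416) : ∑ j ∈ range 416, entry i j = 1248 :=
  (packed_spec hi).2

lemma entry_sq {i j : ℕ} (hi : i < 416) (hj : j < 416) :
    ∑ k ∈ range 416, entry i k * entry k j = 96 * entry i j + 3456 := by
  have h := rowsAll_spec _ _ 0 sq_rows i (by rw [len_row]; exact hi)
  simp only [Nat.zero_add, sqRow] at h
  have h := Nat.eq_of_beq_eq_true h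
  simp only [Nat.add_eq, Nat.mul_eq] at h
  rw [selSum_row] at h
  have e2 : rowData.getD i 0 = row i := rfl
  rw [e2] at h
  have hc := entry_combination hi totalData (fun t => packedData.getD t 0) fun g hg => (table_spec hg).2
  have hone : spreadData.getD 4 0 = ∑ t ∈ range 416, 262144 ^ t := by
    rw [(table_spec (g := 4) (by norm_num)).1]
    exact sum_congr rfl fun t ht => by rw [(mask_spec (mem_range.1 ht)).1]; simp
  have key : ∑ t ∈ range 416, entry i t * packedData.getD t 0
      = 96 * packedData.getD i 0 + 3456 * spreadData.getD 4 0 := by omega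
  rw [hone, (packed_spec hi).1, sum_congr rfl fun t ht => by
    rw [(packed_spec (mem_range.1 ht)).1, mul_sum]] at key
  rw [sum_comm] at key
  have hp : pack (fun c => ∑ t ∈ range 416, entry i t * entry t c) 416 0 =
      pack (fun c => 96 * entry i c + 3456) 416 0 := by
    rw [pack_eq_sum, pack_eq_sum]
    simp only [Nat.zero_add, add_mul, sum_add_distrib, sum_mul, mul_assoc, ← mul_sum]
    convert key using 1
  refine pack_inj 416 0 ?_ ?_ hp j (Nat.zero_le _) (by omega)
  · intro c _ _
    calc ∑ t ∈ range 416, entry i t * entry t c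
        ≤ ∑ _t ∈ range 416, 23 * 23 := sum_le_sum fun t _ => Nat.mul_le_mul (entry_le _ _) (entry_le _ _)
      _ < 262144 := by simp
  · intro c _ _
    have := entry_le i c
    omega

lemma diagSum_eq : ∀ n, diagSum n = ∑ j ∈ range n, entry j j := by
  intro n
  induction n with
  | zero => simp [diagSum]
  | succ n ih => rw [diagSum, ih, sum_range_succ, Nat.add_eq, add_comm]

/-- The projection matrix. -/
noncomputable def projMat : Matrix (Fin 416) (Fin 416) ℝ :=
  Matrix.of fun i j => ((entry i j : ℝ) - 3) / 96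

lemma projMat_apply (i j : Fin 416) : projMat i j = ((entry i j : ℝ) - 3) / 96 := rfl

lemma projMat_symm (i j : Fin 416) : projMat i j = projMat j i := by
  rw [projMat_apply, projMat_apply, entry_comm i.2 j.2]

lemma projMat_mul_self : projMat * projMat = projMat := by
  ext i j
  rw [Matrix.mul_apply]
  have h1 : ∑ k : Fin 416, ((entry i k : ℝ) * (entry k j : ℝ)) = 96 * (entry i j : ℝ) + 3456 := by
    rw [Fin.sum_univ_eq_sum_range (fun k => (entry i k : ℝ) * (entry k j : ℝ))]
    exact_mod_cast entry_sq i.2 j.2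
  have h2 : ∑ k : Fin 416, (entry i k : ℝ) = 1248 := by
    rw [Fin.sum_univ_eq_sum_range (fun k => (entry i k : ℝ))]
    exact_mod_cast entry_row_sum i.2
  have h3 : ∑ k : Fin 416, (entry k j : ℝ) = 1248 := by
    rw [← show ∑ k : Fin 416, (entry j k : ℝ) = 1248 from by
      rw [Fin.sum_univ_eq_sum_range (fun k => (entry j k : ℝ))]
      exact_mod_cast entry_row_sum j.2]
    exact sum_congr rfl fun k _ => by rw [entry_comm k.2 j.2]
  have h4 : ∀ k : Fin 416, projMat i k * projMat k j =
      (((entry i k : ℝ) * (entry k j : ℝ)) - 3 * (entry i k : ℝ) - 3 * (entry k j : ℝ) + 9) / 9216 := by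
    intro k; rw [projMat_apply, projMat_apply]; ring
  simp only [h4, ← Finset.sum_div, sum_add_distrib, sum_sub_distrib, ← mul_sum, h1, h2, h3,
    sum_const, card_univ, Fintype.card_fin, nsmul_eq_mul]
  rw [projMat_apply]; push_cast; ring

lemma projMat_trace : projMat.trace = 63 := by
  have h : ∑ i : Fin 416, (entry i i : ℝ) = 7296 := by
    rw [Fin.sum_univ_eq_sum_range (fun k => (entry k k : ℝ))]
    have := diag_ok
    rw [diagSum_eq] at this
    exact_mod_cast this
  simp only [Matrix.trace, Matrix.diag, projMat_apply, ← Finset.sum_div, sum_sub_distrib, h,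
    sum_const, card_univ, Fintype.card_fin, nsmul_eq_mul]
  norm_num

end Vale.Agent.P052
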