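import Mathlib
import Vale.Agent.P052.Gram

/-! A set of 321 points in a 63-dimensional space that is not a union of 64 sets of smaller
diameter. -/

open Finset Matrix

namespace Vale.Agent.P052

/-- The 321 indices used. -/
def idx : Finset (Fin 416) := univ.filter fun i => grp i = 3 ∨ (i : ℕ) = extraVertex

lemma idx_card : idx.card = 321 := by decide +kernel

lemma grp_extra : grp extraVertex < 3 := by decide +kernel

lemma exists_far : ∃ i j : Fin 416, grp i = 3 ∧ grp j = 3 ∧ i ≠ j ∧ adjB i j = false := by
  decide +kernel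

/-- Scale factor of a point. -/
noncomputable def scale (i : Fin 416) : ℝ :=
  if grp i = 3 then 1 else (Real.sqrt 222 - 1) / 13

lemma scale_extra : 13 * ((Real.sqrt 222 - 1) / 13) ^ 2 + 2 * ((Real.sqrt 222 - 1) / 13) = 17 ∧
    0 < (Real.sqrt 222 - 1) / 13 := by
  have h := Real.mul_self_sqrt (show (0 : ℝ) ≤ 222 by norm_num)
  have h1 : 1 < Real.sqrt 222 := by
    rw [show (1 : ℝ) = Real.sqrt 1 from (Real.sqrt_one).symm]
    exact Real.sqrt_lt_sqrt (by norm_num) (by norm_num)
  refine ⟨?_, div_pos (by linarith) (by norm_num)⟩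
  field_simp
  nlinarith

/-- The projection as a linear map. -/
noncomputable def proj : EuclideanSpace ℝ (Fin 416) →ₗ[ℝ] EuclideanSpace ℝ (Fin 416) :=
  Matrix.toEuclideanLin projMat

/-- The points. -/
noncomputable def pt (i : Fin 416) : EuclideanSpace ℝ (Fin 416) :=
  proj (scale i • EuclideanSpace.single i 1)

lemma proj_single (i : Fin 416) (k : Fin 416) :
    proj (EuclideanSpace.single i 1) k = projMat k i := by
  simp [proj, Matrix.toEuclideanLin, Matrix.toLpLin_apply]

lemma inner_single (i j : Fin 416) :
    inner ℝ (proj (EuclideanSpace.single i 1)) (proj (EuclideanSpace.single j 1))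
      = projMat i j := by
  rw [PiLp.inner_apply]
  simp only [proj_single, RCLike.inner_apply, conj_trivial]
  have h : ∑ k, projMat i k * projMat k j = projMat i j := by
    rw [← Matrix.mul_apply, projMat_mul_self]
  rw [← h]
  exact sum_congr rfl fun k _ => by rw [projMat_symm i k]; ring

lemma norm_sub_sq_pt (i j : Fin 416) : ‖pt i - pt j‖ ^ 2 =
    scale i ^ 2 * projMat i i + scale j ^ 2 * projMat j j - 2 * scale i * scale j * projMat i j := by
  rw [norm_sub_sq_real, ← real_inner_self_eq_norm_sq, ← real_inner_self_eq_norm_sq]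
  simp only [pt, map_smul, real_inner_smul_left, real_inner_smul_right, inner_single]
  ring

lemma entry_of_three {i : ℕ} (j : ℕ) (h : grp i = 3) :
    entry i j = (if i = j then 16 else 0) + (if adjB i j then 4 else 0) + 2 := by
  have : Nat.blt 3 3 = false := by decide
  unfold entry
  rw [h, this]
  by_cases hij : i = j
  · subst hij; cases adjB i i <;> simp
  · have : Nat.beq i j = false := by
      cases hb : Nat.beq i j
      · rfl
      · exact absurd (Nat.eq_of_beq_eq_true hb) hij
    cases adjB i j <;> simp [this, hij]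

lemma entry_self_of_lt {i : ℕ} (hi : i < 416) (h : grp i < 3) : entry i i = 16 := by
  have h1 : Nat.blt (grp i) 3 = true := by simpa using h
  have h2 : adjB i i = false := adjB_irrefl hi
  unfold entry
  simp [h1, h2]

lemma diag_three (i : Fin 416) (h : grp i = 3) : projMat i i = 15 / 96 := by
  rw [projMat_apply, entry_of_three _ h, adjB_irrefl i.2]; norm_num

lemma diag_extra (i : Fin 416) (h : grp i < 3) : projMat i i = 13 / 96 := by
  rw [projMat_apply, entry_self_of_lt i.2 h]; norm_num

lemma off_three (i j : Fin 416) (hij : i ≠ j) (h : grp i = 3) :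
    projMat i j = (if adjB i j then 3 else -1) / 96 := by
  rw [projMat_apply, entry_of_three _ h]
  have : (i : ℕ) ≠ j := fun e => hij (Fin.ext e)
  cases adjB i j <;> simp [this] <;> norm_num

/-- Distances between the points. -/
lemma dist_pt {i j : Fin 416} (hi : i ∈ idx) (hj : j ∈ idx) (hij : i ≠ j) :
    (adjB i j = false → dist (pt i) (pt j) = Real.sqrt (1 / 3)) ∧
      dist (pt i) (pt j) ≤ Real.sqrt (1 / 3) := by
  suffices h : (adjB i j = false → ‖pt i - pt j‖ ^ 2 = 1 / 3) ∧ ‖pt i - pt j‖ ^ 2 ≤ 1 / 3 by
    rw [dist_eq_norm]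
    refine ⟨fun ha => ?_, ?_⟩
    · rw [← h.1 ha, Real.sqrt_sq (norm_nonneg _)]
    · calc ‖pt i - pt j‖ = Real.sqrt (‖pt i - pt j‖ ^ 2) := (Real.sqrt_sq (norm_nonneg _)).symm
        _ ≤ _ := Real.sqrt_le_sqrt h.2
  simp only [idx, mem_filter, mem_univ, true_and] at hi hj
  obtain ⟨hc, hc0⟩ := scale_extra
  rw [norm_sub_sq_pt]
  by_cases gi : grp i = 3
  · by_cases gj : grp j = 3
    · rw [diag_three i gi, diag_three j gj, off_three i j hij gi, scale, scale, if_pos gi, if_pos gj]
      cases adjB i j <;> norm_num
    · have gj' : grp j < 3 := by rw [hj.resolve_left gj]; exact grp_extra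
      rw [diag_three i gi, diag_extra j gj', off_three i j hij gi, scale, scale, if_pos gi,
        if_neg gj]
      generalize (Real.sqrt 222 - 1) / 13 = c at hc hc0 ⊢
      cases adjB i j <;> norm_num
      all_goals ring_nf at hc ⊢
      all_goals first | (constructor <;> linarith) | linarith
  · by_cases gj : grp j = 3
    · have gi' : grp i < 3 := by rw [hi.resolve_left gi]; exact grp_extra
      rw [diag_three j gj, diag_extra i gi', projMat_symm i j, off_three j i (Ne.symm hij) gj,
        scale, scale, if_pos gj, if_neg gi, adjB_comm j.2 i.2]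
      generalize (Real.sqrt 222 - 1) / 13 = c at hc hc0 ⊢
      cases adjB i j <;> norm_num
      all_goals ring_nf at hc ⊢
      all_goals first | (constructor <;> linarith) | linarith
    · exact absurd (Fin.ext ((hi.resolve_left gi).trans (hj.resolve_left gj).symm)) hij

lemma dim_range : Module.finrank ℝ (LinearMap.range proj) = 63 := by
  have hidem : IsIdempotentElem proj := by
    unfold IsIdempotentElem proj
    apply LinearMap.ext
    intro x
    simp [Matrix.toEuclideanLin, Matrix.toLpLin_apply, Matrix.mulVec_mulVec, projMat_mul_self]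
  have htr : LinearMap.trace ℝ _ proj = 63 := by
    rw [LinearMap.trace_eq_matrix_trace ℝ (EuclideanSpace.basisFun (Fin 416) ℝ).toBasis]
    have : LinearMap.toMatrix (EuclideanSpace.basisFun (Fin 416) ℝ).toBasis
        (EuclideanSpace.basisFun (Fin 416) ℝ).toBasis proj = projMat := by
      ext i j
      simp [LinearMap.toMatrix_apply, proj_single]
    rw [this, projMat_trace]
  have h := (LinearMap.IsProj.trace (R := ℝ) ((LinearMap.isProj_range_iff_isIdempotentElem proj).2 hidem))
  rw [htr] at h
  exact_mod_cast h.symm

end Vale.Agent.P052
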