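import Mathlib
import Vale.Agent.P052.Config

/-! Transfer of the configuration to `EuclideanSpace ℝ (Fin 63)`. -/

open Finset Matrix

namespace Vale.Agent.P052

theorem counterexample63 :
    ∃ Y : Set (EuclideanSpace ℝ (Fin 63)), Y.Finite ∧ 0 < Metric.diam Y ∧
      ¬ ∃ C : Fin 64 → Set (EuclideanSpace ℝ (Fin 63)), Y ⊆ ⋃ k, C k ∧
          ∀ k, C k ⊆ Y ∧ Metric.diam (C k) < Metric.diam Y := by
  classical
  let b := (stdOrthonormalBasis ℝ (LinearMap.range proj)).reindex (finCongr dim_range)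
  let z : Fin 416 → EuclideanSpace ℝ (Fin 63) := fun i => b.repr ⟨pt i, LinearMap.mem_range_self _ _⟩
  have hz : ∀ i j, dist (z i) (z j) = dist (pt i) (pt j) := fun i j => by
    simp only [z, b.repr.dist_map]; rfl
  have hfin : ((fun i => z i) '' (idx : Set (Fin 416))).Finite := idx.finite_toSet.image _
  set Y : Set (EuclideanSpace ℝ (Fin 63)) := z '' (idx : Set (Fin 416)) with hY
  have hmax : ∀ i ∈ idx, ∀ j ∈ idx, dist (z i) (z j) ≤ Real.sqrt (1 / 3) := by
    intro i hi j hj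
    by_cases h : i = j
    · subst h; simp [Real.sqrt_nonneg]
    · rw [hz]; exact (dist_pt hi hj h).2
  have hle : Metric.diam Y ≤ Real.sqrt (1 / 3) := by
    refine Metric.diam_le_of_forall_dist_le (Real.sqrt_nonneg _) ?_
    rintro _ ⟨i, hi, rfl⟩ _ ⟨j, hj, rfl⟩
    exact hmax i hi j hj
  have hfar : ∀ i ∈ idx, ∀ j ∈ idx, i ≠ j → adjB i j = false →
      Metric.diam Y ≤ dist (z i) (z j) := by
    intro i hi j hj hij ha
    rw [hz, (dist_pt hi hj hij).1 ha]
    exact hle
  have hdiam : Metric.diam Y = Real.sqrt (1 / 3) := by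
    obtain ⟨i, j, gi, gj, hij, ha⟩ := exists_far
    have hi : i ∈ idx := by simp [idx, gi]
    have hj : j ∈ idx := by simp [idx, gj]
    refine le_antisymm hle ?_
    rw [← (dist_pt hi hj hij).1 ha, ← hz]
    exact Metric.dist_le_diam_of_mem hfin.isBounded ⟨i, hi, rfl⟩ ⟨j, hj, rfl⟩
  refine ⟨Y, hfin, by rw [hdiam]; exact Real.sqrt_pos.2 (by norm_num), ?_⟩
  rintro ⟨C, hcov, hC⟩
  have hin : ∀ i ∈ idx, ∃ k, z i ∈ C k := fun i hi =>
    Set.mem_iUnion.1 (hcov ⟨i, hi, rfl⟩)
  choose! f hf using hin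
  obtain ⟨k, -, hk⟩ := exists_lt_card_fiber_of_mul_lt_card_of_maps_to
    (s := idx) (t := (univ : Finset (Fin 64))) (f := f) (n := 5) (fun _ _ => mem_univ _)
    (by rw [idx_card]; simp)
  set s := idx.filter fun i => f i = k
  have hclique := clique_card_le_five (s.image Fin.val) ?_ ?_
  · rw [Finset.card_image_of_injective _ Fin.val_injective] at hclique
    omega
  · intro x hx
    obtain ⟨i, _, rfl⟩ := Finset.mem_image.1 hx
    exact i.2
  · intro x hx y hy hxy
    obtain ⟨i, hi, rfl⟩ := Finset.mem_image.1 hx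
    obtain ⟨j, hj, rfl⟩ := Finset.mem_image.1 hy
    simp only [s, mem_filter] at hi hj
    by_contra hne
    have h1 := hfar i hi.1 j hj.1 (fun e => hxy (by rw [e])) (by simpa using hne)
    have h2 := Metric.dist_le_diam_of_mem (hfin.isBounded.subset (hC k).1)
      (hi.2 ▸ hf i hi.1) (hj.2 ▸ hf j hj.1)
    linarith [(hC k).2]

end Vale.Agent.P052
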